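import Vale.Agent.P141.H75.SpT
import Vale.Agent.P141.H911.Box
import Vale.Agent.P141.H606.FB

/-!
# P141, line W, (SP): the box forms of the totals `T4 (nvT s ho nd le σ hsub)`

* `T4_box`: the total as a sum over boxes (an equality);
* `nodes_boxT`: the same for a density of the used nodes;
* `T4_cell`: the boxes of a region with top `(Λ, x)`, sorted by their roots of scale `Λ`;
* `T4_split`: kernel part and residual part.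
-/

namespace Vale.Agent.P141.H75

open Finset
open Vale.Agent.P141.H315 (Grid)
open Vale.Agent.P141.H8 (T4 Rgn)
open Vale.Agent.P141.PL (Pt Bx hs loc el)
open Vale.Agent.P141.PL.H571 (W)
open Vale.Agent.P141.PL.H95 (gr)
open Vale.Agent.P141.PL.H855 (wN TT)
open Vale.Agent.P141.H337 (ivm mem_ivm av2)
open Vale.Agent.P141.H330 (nvT T4_nvT)
open Vale.Agent.P141.H911
open Vale.Agent.P141.H606 (KP RP TT_split)

noncomputable section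

open scoped Classical

variable {s o : ℤ} {nd : Finset (ℕ × ℤ)} {le : ℕ × ℤ → ℤ}

/-- the local form of the box `m`, slots `A B C D` on the faces in the order `σ.symm` -/
def lbT (σ : Equiv.Perm (Fin 4)) (A B C D : ℕ → ℤ → ℝ) (k : ℕ) (m : Bx) : ℝ :=
  loc k m (fun p => A k (el (lc σ.symm 0) p)) (fun p => B k (el (lc σ.symm 1) p))
    (fun p => C k (el (lc σ.symm 2) p)) (fun p => D k (el (lc σ.symm 3) p))

theorem LB_slt (σ : Equiv.Perm (Fin 4)) (A B C D : ℕ → ℤ → ℝ) (k : ℕ) (m : Bx) :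
    LB σ.symm (fun s => slt σ A B C D s k) k m = lbT σ A B C D k m := by
  unfold LB lbT lf
  simp only [slt_0, slt_1, slt_2, slt_3]

theorem und_scale {ud : ℕ → ℤ → Prop} {K : ℕ} (hnd : ∀ N ∈ nd, 1 ≤ N.1)
    (hK : ∀ N ∈ nd, ud N.1 (le N) → N.1 ≤ K) :
    ∀ N ∈ und nd le ud, 1 ≤ N.1 ∧ N.1 ≤ K := fun N hN => by
  obtain ⟨h1, h2⟩ := mem_filter.1 hN
  exact ⟨hnd N h1, hK N h1 h2⟩

theorem mem_und {ud : ℕ → ℤ → Prop} {N : ℕ × ℤ} :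
    N ∈ und nd le ud ↔ N ∈ nd ∧ ud N.1 (le N) := mem_filter

/-- the windows of the used nodes of a region are in its top cell -/
theorem und_cube {gd ud : ℕ → ℤ → Prop} {Λ : ℕ} {x : ℤ} (hR : Rgn (gr 7 s) gd Λ x ud)
    (hsub : ∀ N ∈ nd, W N.1 N.2 ⊆ (gr 7 s).cube N.1 (le N)) :
    ∀ N ∈ und nd le ud, W N.1 N.2 ⊆ (gr 7 s).cube Λ x := fun N hN y hy => by
  obtain ⟨h1, h2⟩ := mem_und.1 hN
  exact (hR.bel N.1 y ((hR.const N.1 _ y (hsub N h1 hy)).2 h2)).2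

variable (ho : o = 1 ∨ o = -1) (σ : Equiv.Perm (Fin 4))
  (hsub : ∀ N ∈ nd, W N.1 N.2 ⊆ (gr 7 s).cube N.1 (le N))

/-- **the total as a sum over boxes** (an equality) -/
theorem T4_box {ud : ℕ → ℤ → Prop} {K : ℕ} (hnd : ∀ N ∈ nd, 1 ≤ N.1)
    (hK : ∀ N ∈ nd, ud N.1 (le N) → N.1 ≤ K) (A B C D : ℕ → ℤ → ℝ) :
    T4 (nvT s ho nd le σ hsub) ud A B C D =
      (|dd σ.symm 3 2| : ℤ) * ((36 * (4 : ℝ) ^ K)⁻¹ *
        ∑ k ∈ Icc 1 K, ((2 : ℝ) ^ k)⁻¹ * ∑ m0 ∈ Ico (0 : ℤ) (6 * 2 ^ (K - k)),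
          ∑ m1 ∈ Ico (0 : ℤ) (6 * 2 ^ (K - k)), ∑ n ∈ Ut σ.symm o nd le ud k m0 m1,
            |lbT σ A B C D k (m0, m1, n, qz o m0 m1 n)|) := by
  rw [T4_TT]
  have h := TT_box σ.symm o (und_scale hnd hK) (slt σ A B C D)
  simp only [LB_slt] at h
  exact h

/-- **the box form of a density of the used nodes** (an equality) -/
theorem nodes_boxT (τ : Equiv.Perm (Fin 4)) {ud : ℕ → ℤ → Prop} {K : ℕ}
    (hnd : ∀ N ∈ nd, 1 ≤ N.1) (hK : ∀ N ∈ nd, ud N.1 (le N) → N.1 ≤ K) (ψ : ℕ → ℤ → ℝ) :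
    (∑ N ∈ nd, if ud N.1 (le N) then ψ N.1 N.2 else 0) =
      (|dd τ 3 2| : ℤ) * ((36 * (4 : ℝ) ^ K)⁻¹ *
        ∑ k ∈ Icc 1 K, (4 : ℝ) ^ k * ∑ m0 ∈ Ico (0 : ℤ) (6 * 2 ^ (K - k)),
          ∑ m1 ∈ Ico (0 : ℤ) (6 * 2 ^ (K - k)), ∑ n ∈ Ut τ o nd le ud k m0 m1,
            ψ k (vz τ o m0 m1 n)) := by
  rw [← sum_filter]
  exact nodes_box τ o (und_scale hnd hK) ψ

/-- **the boxes of a region, sorted by their roots**: at most `76680` roots (`card_RC`) -/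
theorem T4_cell {gd ud : ℕ → ℤ → Prop} {Λ : ℕ} {x : ℤ} (hR : Rgn (gr 7 s) gd Λ x ud)
    (hnd : ∀ N ∈ nd, 1 ≤ N.1) (A B C D : ℕ → ℤ → ℝ) :
    T4 (nvT s ho nd le σ hsub) ud A B C D ≤ 3 * ((36 * (4 : ℝ) ^ Λ)⁻¹ *
      ∑ R ∈ RC σ.symm Λ (2 ^ (Λ + 7) * ((x + s) / 2 ^ (Λ + 7)) - s), ∑ k ∈ Icc 1 Λ,
        ((2 : ℝ) ^ k)⁻¹ * ∑ m ∈ ub σ.symm o (und nd le ud) Λ R k, |lbT σ A B C D k m|) := by
  rw [T4_TT]
  have h := TT_cell σ.symm ho (s := s) (K := Λ) (x := x)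
    (und_scale hnd fun N _ h => (hR.bel _ _ h).1) (und_cube hR hsub) (slt σ A B C D)
  simp only [LB_slt] at h
  exact h

/-- **kernel part and residual part of the total**: on the used boxes the product of the slots
`A`, `B` is `Kr + Rr` -/
theorem T4_split {ud : ℕ → ℤ → Prop} {K : ℕ} (hnd : ∀ N ∈ nd, 1 ≤ N.1)
    (hK : ∀ N ∈ nd, ud N.1 (le N) → N.1 ≤ K) (A B C D : ℕ → ℤ → ℝ)
    (Kr Rr : ℕ → ℤ → ℤ → ℤ → ℤ → ℝ)
    (h : ∀ k m0 m1 n, (k, vz σ.symm o m0 m1 n) ∈ nd → ud k (le (k, vz σ.symm o m0 m1 n)) →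
      ∀ x0 ∈ ivm k m0, ∀ x1 ∈ ivm k m1, ∀ x2 ∈ ivm k n, ∀ x3 ∈ ivm k (qz o m0 m1 n),
        A k (dd σ.symm 0 1 * x1 + dd σ.symm 0 2 * x2 + dd σ.symm 0 3 * x3) *
          B k (dd σ.symm 1 0 * x0 + dd σ.symm 1 2 * x2 + dd σ.symm 1 3 * x3) =
          Kr k x0 x1 x2 x3 + Rr k x0 x1 x2 x3) :
    T4 (nvT s ho nd le σ hsub) ud A B C D ≤ (|dd σ.symm 3 2| : ℤ) * ((36 * (4 : ℝ) ^ K)⁻¹ *
      (∑ x0 ∈ Ico (0 : ℤ) (6 * 2 ^ K), ∑ x1 ∈ Ico (0 : ℤ) (6 * 2 ^ K),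
        KP σ.symm o K (und nd le ud) (slt σ A B C D) Kr x0 x1 +
          RP σ.symm o K (und nd le ud) (slt σ A B C D) Rr)) := by
  rw [T4_TT]
  refine TT_split σ.symm o (und_scale hnd hK) (slt σ A B C D) Kr Rr ?_
  intro k m0 m1 n hn x0 h0 x1 h1 x2 h2 x3 h3
  obtain ⟨hn1, hn2⟩ := mem_und.1 hn
  have e := h k m0 m1 n hn1 hn2 x0 h0 x1 h1 x2 h2 x3 h3
  unfold Pz Gz
  simp only [slt_0, slt_1]
  exact e

end

end Vale.Agent.P141.H75
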