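import Vale.Agent.P141.H911.Fibre2
import Vale.Agent.P141.H330.NvT

/-!
# P141, line W, (SP): the fibre form of the totals `T4 (nvT s ho nd le σ hsub)`

The slots `A B C D` of `nvT` in the order `σ` are the faces `P G X Y` of the fibres in the order
`σ.symm`.
* `form_mem_W`: on the box over the cells `m0`, `m1`, `n` the four linear forms stay in the window
  of its node; `form_used`: they are used points if the node is used;
* `T4_fib`: the total is at most `|dd σ.symm 3 2|` times the average over `z ∈ [0, 6·2^K)²` of the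
  fibre sums;
* `nodes_fibT`: the same as an identity for a density of the used nodes.
-/

namespace Vale.Agent.P141.H75

open Finset
open Vale.Agent.P141.H315 (Grid)
open Vale.Agent.P141.H8 (T4 Rgn)
open Vale.Agent.P141.PL (hs)
open Vale.Agent.P141.PL.H620 (pts pt ell nn ell_nn)
open Vale.Agent.P141.PL.H571 (W ell_mem_W)
open Vale.Agent.P141.PL.H95 (gr)
open Vale.Agent.P141.PL.H855 (wN TT)
open Vale.Agent.P141.H337 (ivm mem_ivm av2)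
open Vale.Agent.P141.H330 (nvT T4_nvT)
open Vale.Agent.P141.H911

noncomputable section

/-! ### The linear forms of a box stay in the window of its node -/

theorem ell_box_mem_W {k : ℕ} {o : ℤ} (ho : o = 1 ∨ o = -1) {m z : Fin 4 → ℤ}
    (hm : ∑ i, m i = o - 2) (hz : ∀ i, z i ∈ ivm k (m i)) (j : Fin 4) :
    ell j z ∈ W k (nod m) := by
  have hb : ∀ i, 2 ^ k * m i ≤ z i ∧ z i < 2 ^ k * m i + 2 ^ k := fun i => by
    have h := hz i
    unfold ivm at h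
    rw [mem_Ico] at h
    exact h
  set r : Fin 4 → ℕ := fun i => (z i - 2 ^ k * m i).toNat with hr
  have hr1 : ∀ i, (r i : ℤ) = z i - 2 ^ k * m i := fun i =>
    Int.toNat_of_nonneg (by linarith [(hb i).1])
  have hrp : r ∈ pts k := by
    unfold pts
    rw [Fintype.mem_piFinset]
    intro i
    rw [mem_range]
    have h1 : (r i : ℤ) < ((2 ^ k : ℕ) : ℤ) := by
      rw [hr1]; push_cast; linarith [(hb i).2]
    exact_mod_cast h1
  have hzp : z = pt k m r := by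
    funext i
    unfold pt
    rw [hr1]; ring
  have h2 : ell j z = ell j (pt k (nn o (nod m) 0 0) r) := by
    rw [hzp, box_eq_nn hm, ell_nn, ell_nn, ← box_eq_nn hm]
  rw [h2]
  exact ell_mem_W ho hrp j

/-- **the linear forms of a box stay in the window of its node** -/
theorem form_mem_W (τ : Equiv.Perm (Fin 4)) {k : ℕ} {o : ℤ} (ho : o = 1 ∨ o = -1)
    {m0 m1 n x0 x1 x2 x3 : ℤ} (h0 : x0 ∈ ivm k m0) (h1 : x1 ∈ ivm k m1) (h2 : x2 ∈ ivm k n)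
    (h3 : x3 ∈ ivm k (qz o m0 m1 n)) (s : Fin 4) :
    elp τ s ![x0, x1, x2, x3] ∈ W k (vz τ o m0 m1 n) := by
  have h := ell_box_mem_W (k := k) ho (bz_sum τ o m0 m1 n) (z := ![x0, x1, x2, x3] ∘ τ.symm)
    (fun i => ?_) (τ s)
  · rw [ell_perm, nod_bz] at h
    have e : (![x0, x1, x2, x3] ∘ τ.symm) ∘ τ = ![x0, x1, x2, x3] := by
      funext i; simp
    rwa [e] at h
  · unfold bz
    simp only [Function.comp_apply]
    generalize τ.symm i = t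
    fin_cases t
    · exact h0
    · exact h1
    · exact h2
    · exact h3

/-! ### The slots in the order `σ.symm` -/

section slots

variable (σ : Equiv.Perm (Fin 4)) (A B C D : ℕ → ℤ → ℝ)

/-- the slots of the node: slot `j` carries the function `σ j` of the list -/
def slt : Fin 4 → ℕ → ℤ → ℝ := fun j => ![A, B, C, D] (σ j)

@[simp] theorem slt_0 : slt σ A B C D (σ.symm 0) = A := by simp [slt]

@[simp] theorem slt_1 : slt σ A B C D (σ.symm 1) = B := by simp [slt]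

@[simp] theorem slt_2 : slt σ A B C D (σ.symm 2) = C := by simp [slt]

@[simp] theorem slt_3 : slt σ A B C D (σ.symm 3) = D := by simp [slt]

/-- the integrand of a fibre, slots `P G X Y` at the scale `k` -/
def fzT (k : ℕ) (x0 x1 x2 x3 : ℤ) : ℝ :=
  (hs k x2 * D k (dd σ.symm 3 0 * x0 + dd σ.symm 3 1 * x1 + dd σ.symm 3 2 * x2)) *
    (A k (dd σ.symm 0 1 * x1 + dd σ.symm 0 2 * x2 + dd σ.symm 0 3 * x3) *
      B k (dd σ.symm 1 0 * x0 + dd σ.symm 1 2 * x2 + dd σ.symm 1 3 * x3)) *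
    (hs k x3 * C k (dd σ.symm 2 0 * x0 + dd σ.symm 2 1 * x1 + dd σ.symm 2 3 * x3))

theorem Fz_slt (k : ℕ) (x0 x1 x2 x3 : ℤ) :
    Fz σ.symm (fun s => slt σ A B C D s k) k x0 x1 x2 x3 = fzT σ A B C D k x0 x1 x2 x3 := by
  unfold Fz Pz Gz Xz Yz fzT
  simp only [slt_0, slt_1, slt_2, slt_3]

end slots

/-! ### The total over the used nodes -/

section total

open scoped Classical

variable {s o : ℤ} {nd : Finset (ℕ × ℤ)} {le : ℕ × ℤ → ℤ}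

/-- the used nodes -/
def und (nd : Finset (ℕ × ℤ)) (le : ℕ × ℤ → ℤ) (ud : ℕ → ℤ → Prop) : Finset (ℕ × ℤ) :=
  nd.filter fun N => ud N.1 (le N)

/-- the used cells of the scale `k` of the fibre over the cells `m0`, `m1` -/
def Ut (τ : Equiv.Perm (Fin 4)) (o : ℤ) (nd : Finset (ℕ × ℤ)) (le : ℕ × ℤ → ℤ)
    (ud : ℕ → ℤ → Prop) (k : ℕ) (m0 m1 : ℤ) : Finset ℤ :=
  Uz τ o (vk (und nd le ud) k) m0 m1

theorem mem_Ut {τ : Equiv.Perm (Fin 4)} {ud : ℕ → ℤ → Prop} {k : ℕ} {m0 m1 n : ℤ} :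
    n ∈ Ut τ o nd le ud k m0 m1 ↔
      (k, vz τ o m0 m1 n) ∈ nd ∧ ud k (le (k, vz τ o m0 m1 n)) := by
  unfold Ut und
  rw [mem_Uz, mem_vk, mem_filter]

/-- **used boxes: the four forms are used points** -/
theorem form_used (ho : o = 1 ∨ o = -1)
    (hsub : ∀ N ∈ nd, W N.1 N.2 ⊆ (gr 7 s).cube N.1 (le N)) {τ : Equiv.Perm (Fin 4)}
    {ud : ℕ → ℤ → Prop} (hc : ∀ k y z, z ∈ (gr 7 s).cube k y → (ud k z ↔ ud k y)) {k : ℕ}
    {m0 m1 n x0 x1 x2 x3 : ℤ} (hn : n ∈ Ut τ o nd le ud k m0 m1) (h0 : x0 ∈ ivm k m0)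
    (h1 : x1 ∈ ivm k m1) (h2 : x2 ∈ ivm k n) (h3 : x3 ∈ ivm k (qz o m0 m1 n)) (j : Fin 4) :
    elp τ j ![x0, x1, x2, x3] ∈ (gr 7 s).cube k (le (k, vz τ o m0 m1 n)) ∧
      ud k (elp τ j ![x0, x1, x2, x3]) := by
  obtain ⟨hN, hu⟩ := mem_Ut.1 hn
  have h := hsub _ hN (form_mem_W τ ho h0 h1 h2 h3 j)
  exact ⟨h, (hc k _ _ h).2 hu⟩

variable (ho : o = 1 ∨ o = -1) (σ : Equiv.Perm (Fin 4))
  (hsub : ∀ N ∈ nd, W N.1 N.2 ⊆ (gr 7 s).cube N.1 (le N))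

theorem T4_TT (ud : ℕ → ℤ → Prop) (A B C D : ℕ → ℤ → ℝ) :
    T4 (nvT s ho nd le σ hsub) ud A B C D =
      TT o (und nd le ud) (fun j N => slt σ A B C D j N.1) :=
  T4_nvT ho σ hsub ud A B C D

/-- **the fibre form of the total** -/
theorem T4_fib {ud : ℕ → ℤ → Prop} {K : ℕ} (hnd : ∀ N ∈ nd, 1 ≤ N.1)
    (hK : ∀ N ∈ nd, ud N.1 (le N) → N.1 ≤ K) (A B C D : ℕ → ℤ → ℝ) :
    T4 (nvT s ho nd le σ hsub) ud A B C D ≤
      (|dd σ.symm 3 2| : ℤ) * ((36 * (4 : ℝ) ^ K)⁻¹ *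
        ∑ x0 ∈ Ico (0 : ℤ) (6 * 2 ^ K), ∑ x1 ∈ Ico (0 : ℤ) (6 * 2 ^ K), ∑ k ∈ Icc 1 K,
          ∑ n ∈ Ut σ.symm o nd le ud k (x0 / 2 ^ k) (x1 / 2 ^ k), 2 ^ k *
            |av2 (ivm k n) (ivm k (qz o (x0 / 2 ^ k) (x1 / 2 ^ k) n))
              (fzT σ A B C D k x0 x1)|) := by
  rw [T4_TT]
  have hnd' : ∀ N ∈ und nd le ud, 1 ≤ N.1 ∧ N.1 ≤ K := fun N hN => by
    obtain ⟨h1, h2⟩ := mem_filter.1 hN
    exact ⟨hnd N h1, hK N h1 h2⟩
  have h := TT_fib σ.symm o hnd' (slt σ A B C D)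
  have e : ∀ k x0 x1, Fz σ.symm (fun s => slt σ A B C D s k) k x0 x1 =
      fzT σ A B C D k x0 x1 := fun k x0 x1 => by
    funext x2 x3
    exact Fz_slt σ A B C D k x0 x1 x2 x3
  simp only [e] at h
  exact h

/-- **the fibre form of a density of the used nodes** -/
theorem nodes_fibT (τ : Equiv.Perm (Fin 4)) {ud : ℕ → ℤ → Prop} {K : ℕ}
    (hnd : ∀ N ∈ nd, 1 ≤ N.1) (hK : ∀ N ∈ nd, ud N.1 (le N) → N.1 ≤ K) (ψ : ℕ → ℤ → ℝ) :
    (∑ N ∈ nd, if ud N.1 (le N) then ψ N.1 N.2 else 0) =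
      (|dd τ 3 2| : ℤ) * ((36 * (4 : ℝ) ^ K)⁻¹ *
        ∑ x0 ∈ Ico (0 : ℤ) (6 * 2 ^ K), ∑ x1 ∈ Ico (0 : ℤ) (6 * 2 ^ K), ∑ k ∈ Icc 1 K,
          ∑ n ∈ Ut τ o nd le ud k (x0 / 2 ^ k) (x1 / 2 ^ k),
            ψ k (vz τ o (x0 / 2 ^ k) (x1 / 2 ^ k) n)) := by
  rw [← sum_filter]
  exact nodes_fib τ o (nd := und nd le ud) (fun N hN => by
    obtain ⟨h1, h2⟩ := mem_filter.1 hN
    exact hK N h1 h2) (fun N hN => hnd N (mem_filter.1 hN).1) ψ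

/-- the same for a region with top `(Λ, x)` -/
theorem T4_fib_rgn {gd ud : ℕ → ℤ → Prop} {Λ : ℕ} {x : ℤ} (hR : Rgn (gr 7 s) gd Λ x ud)
    (hnd : ∀ N ∈ nd, 1 ≤ N.1) (A B C D : ℕ → ℤ → ℝ) :
    T4 (nvT s ho nd le σ hsub) ud A B C D ≤
      (|dd σ.symm 3 2| : ℤ) * ((36 * (4 : ℝ) ^ Λ)⁻¹ *
        ∑ x0 ∈ Ico (0 : ℤ) (6 * 2 ^ Λ), ∑ x1 ∈ Ico (0 : ℤ) (6 * 2 ^ Λ), ∑ k ∈ Icc 1 Λ,
          ∑ n ∈ Ut σ.symm o nd le ud k (x0 / 2 ^ k) (x1 / 2 ^ k), 2 ^ k *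
            |av2 (ivm k n) (ivm k (qz o (x0 / 2 ^ k) (x1 / 2 ^ k) n))
              (fzT σ A B C D k x0 x1)|) :=
  T4_fib ho σ hsub hnd (fun _ _ h => (hR.bel _ _ h).1) A B C D

end total

end

end Vale.Agent.P141.H75
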